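import Mathlib

/-! # Taylor series of functions of several variables as formal power series

`Exp g g'`: all truncations of the formal series `g'` are Taylor polynomials of `g` at `0`. -/

open Filter Topology Asymptotics Set

namespace Vale.Agent.P218N.F

variable {𝕜 : Type*} [RCLike 𝕜] {σ τ : Type*} [Fintype σ] [Fintype τ]

/-- asymptotic expansion at `0` -/
def Exp (g : (σ → 𝕜) → 𝕜) (g' : MvPowerSeries σ 𝕜) : Prop :=
  ∀ k : ℕ, (fun x => g x - MvPolynomial.eval x (MvPowerSeries.truncTotal k g')) =O[𝓝 0]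
    fun x => ‖x‖ ^ k

omit [Fintype σ] in
theorem continuous_eval (p : MvPolynomial σ 𝕜) :
    Continuous fun x : σ → 𝕜 => MvPolynomial.eval x p := MvPolynomial.continuous_eval p

omit [Fintype σ] in
theorem poly_isBigO_one (p : MvPolynomial σ 𝕜) :
    (fun x : σ → 𝕜 => MvPolynomial.eval x p) =O[𝓝 0] fun _ => (1 : ℝ) :=
  ((continuous_eval p).tendsto 0).isBigO_one ℝ

theorem pow_isBigO {j k : ℕ} (h : k ≤ j) :
    (fun x : σ → 𝕜 => ‖x‖ ^ j) =O[𝓝 0] fun x => ‖x‖ ^ k := by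
  refine IsBigO.of_bound 1 ?_
  filter_upwards [Metric.ball_mem_nhds (0 : σ → 𝕜) one_pos] with x hx
  rw [mem_ball_zero_iff] at hx
  simp only [norm_pow, norm_norm, one_mul]
  exact pow_le_pow_of_le_one (norm_nonneg _) hx.le h

theorem norm_prod_le (x : σ → 𝕜) (d : σ →₀ ℕ) :
    ‖∏ i ∈ d.support, x i ^ d i‖ ≤ ‖x‖ ^ d.degree := by
  rw [norm_prod, Finsupp.degree_apply, ← Finset.prod_pow_eq_pow_sum]
  refine Finset.prod_le_prod (fun i _ => norm_nonneg _) fun i _ => ?_
  rw [norm_pow]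
  exact pow_le_pow_left₀ (norm_nonneg _) (norm_le_pi_norm x i) _

theorem poly_isBigO {p : MvPolynomial σ 𝕜} {k : ℕ}
    (h : ∀ d : σ →₀ ℕ, d.degree < k → p.coeff d = 0) :
    (fun x : σ → 𝕜 => MvPolynomial.eval x p) =O[𝓝 0] fun x => ‖x‖ ^ k := by
  simp only [MvPolynomial.eval_eq]
  refine IsBigO.fun_sum fun d hd => ?_
  have hk : k ≤ d.degree := not_lt.1 fun hc => MvPolynomial.mem_support_iff.1 hd (h d hc)
  refine IsBigO.const_mul_left (IsBigO.trans ?_ (pow_isBigO hk)) _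
  refine IsBigO.of_bound 1 (Eventually.of_forall fun x => ?_)
  simpa using norm_prod_le x d

theorem poly1_dvd : ∀ (k : ℕ) (q : Polynomial 𝕜),
    ((fun s => q.eval s) =O[𝓝[≠] 0] fun s : 𝕜 => ‖s‖ ^ k) → Polynomial.X ^ k ∣ q := by
  intro k
  induction k with
  | zero => simp
  | succ k ih =>
    intro q hq
    have h0 : q.eval 0 = 0 := by
      have h1 : Tendsto (fun s : 𝕜 => ‖s‖ ^ (k + 1)) (𝓝[≠] 0) (𝓝 0) := by
        have : Tendsto (fun s : 𝕜 => ‖s‖ ^ (k + 1)) (𝓝 0) (𝓝 (‖(0 : 𝕜)‖ ^ (k + 1))) :=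
          (continuous_norm.pow (k + 1)).tendsto 0
        simpa using this.mono_left nhdsWithin_le_nhds
      exact tendsto_nhds_unique ((q.continuous.tendsto 0).mono_left nhdsWithin_le_nhds)
        (hq.trans_tendsto h1)
    obtain ⟨q', rfl⟩ : Polynomial.X ∣ q := by
      rw [Polynomial.X_dvd_iff, Polynomial.coeff_zero_eq_eval_zero, h0]
    rw [pow_succ']
    refine mul_dvd_mul_left _ (ih q' ?_)
    obtain ⟨c, hc⟩ := hq.bound
    refine IsBigO.of_bound c ?_
    filter_upwards [hc, self_mem_nhdsWithin] with s hs hs0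
    have hs0' : (0 : ℝ) < ‖s‖ := norm_pos_iff.2 hs0
    simp only [Polynomial.eval_mul, Polynomial.eval_X, norm_mul, norm_pow, pow_succ',
      norm_norm] at hs ⊢
    have : ‖s‖ * ‖q'.eval s‖ ≤ ‖s‖ * (c * ‖s‖ ^ k) := by linarith
    exact le_of_mul_le_mul_left this hs0'

omit [Fintype σ] in
/-- weighted version of the uniqueness of Taylor coefficients -/
theorem coeff_eq_zero_of_rays (w : σ → ℕ) {p : MvPolynomial σ 𝕜} {k : ℕ}
    (h : ∀ x : σ → 𝕜, (fun s : 𝕜 => MvPolynomial.eval (fun i => s ^ w i * x i) p) =O[𝓝[≠] 0]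
      fun s => ‖s‖ ^ k) (d : σ →₀ ℕ) (hd : Finsupp.weight w d < k) : p.coeff d = 0 := by
  classical
  set j := Finsupp.weight w d with hj
  have key : MvPolynomial.weightedHomogeneousComponent w j p = 0 := by
    refine MvPolynomial.funext fun x => ?_
    let q : Polynomial 𝕜 := ∑ e ∈ p.support,
      Polynomial.monomial (Finsupp.weight w e) (p.coeff e * ∏ i ∈ e.support, x i ^ e i)
    have h1 : ∀ s : 𝕜, q.eval s = MvPolynomial.eval (fun i => s ^ w i * x i) p := by
      intro s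
      simp only [q, Polynomial.eval_finsetSum, Polynomial.eval_monomial, MvPolynomial.eval_eq]
      refine Finset.sum_congr rfl fun e _ => ?_
      simp only [mul_pow, Finset.prod_mul_distrib, ← pow_mul, Finset.prod_pow_eq_pow_sum,
        Finsupp.weight_apply, Finsupp.sum, smul_eq_mul, mul_comm (w _)]
      ring
    have h2 : Polynomial.X ^ k ∣ q := poly1_dvd k q (by simpa only [h1] using h x)
    have h3 := Polynomial.X_pow_dvd_iff.1 h2 j hd
    rw [map_zero, MvPolynomial.weightedHomogeneousComponent_apply, map_sum, Finset.sum_filter]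
    refine Eq.trans ?_ h3
    simp only [q, Polynomial.finsetSum_coeff, Polynomial.coeff_monomial]
    refine Finset.sum_congr rfl fun e _ => ?_
    split_ifs
    · rw [MvPolynomial.eval_monomial, Finsupp.prod]
    · rfl
  have := congrArg (MvPolynomial.coeff d) key
  rwa [MvPolynomial.coeff_weightedHomogeneousComponent, if_pos rfl, MvPolynomial.coeff_zero] at this

theorem coeff_eq_zero_of_isBigO {p : MvPolynomial σ 𝕜} {k : ℕ}
    (h : (fun x : σ → 𝕜 => MvPolynomial.eval x p) =O[𝓝 0] fun x => ‖x‖ ^ k)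
    (d : σ →₀ ℕ) (hd : d.degree < k) : p.coeff d = 0 := by
  refine coeff_eq_zero_of_rays (fun _ => 1) (fun x => ?_) d
    (by rwa [← Finsupp.degree_eq_weight_one])
  have h1 : Tendsto (fun s : 𝕜 => s • x) (𝓝[≠] 0) (𝓝 0) := by
    have : Tendsto (fun s : 𝕜 => s • x) (𝓝 0) (𝓝 ((0 : 𝕜) • x)) :=
      (continuous_id.smul continuous_const).tendsto 0
    rw [zero_smul] at this
    exact this.mono_left nhdsWithin_le_nhds
  refine ((h.comp_tendsto h1).congr_left fun s => ?_).trans ?_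
  · simp only [Function.comp, pow_one]
    rfl
  · refine IsBigO.of_bound (‖x‖ ^ k) (Eventually.of_forall fun s => ?_)
    simp [norm_smul, mul_pow, mul_comm]

omit [Fintype σ] in
theorem le_order_iff {g : MvPowerSeries σ 𝕜} {k : ℕ} :
    (k : ℕ∞) ≤ g.order ↔ ∀ d : σ →₀ ℕ, d.degree < k → MvPowerSeries.coeff d g = 0 :=
  ⟨fun h _ hd => MvPowerSeries.coeff_of_lt_order (lt_of_lt_of_le (by exact_mod_cast hd) h),
    MvPowerSeries.nat_le_order⟩

theorem order_sub_trunc (g : MvPowerSeries σ 𝕜) (k : ℕ) :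
    (k : ℕ∞) ≤ (g - (MvPowerSeries.truncTotal k g : MvPolynomial σ 𝕜)).order :=
  le_order_iff.2 fun d hd => by
    rw [map_sub, MvPolynomial.coeff_coe, MvPowerSeries.coeff_truncTotal _ hd, sub_self]

omit [Fintype σ] in
theorem le_order_add {f g : MvPowerSeries σ 𝕜} {k : ℕ∞} (hf : k ≤ f.order) (hg : k ≤ g.order) :
    k ≤ (f + g).order := (le_min hf hg).trans MvPowerSeries.min_order_le_add

/-- any polynomial which agrees with the series up to order `k` is a Taylor polynomial -/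
theorem Exp.sub_isBigO {g : (σ → 𝕜) → 𝕜} {g' : MvPowerSeries σ 𝕜} (h : Exp g g') {k : ℕ}
    {p : MvPolynomial σ 𝕜} (hp : (k : ℕ∞) ≤ (g' - (p : MvPowerSeries σ 𝕜)).order) :
    (fun x => g x - MvPolynomial.eval x p) =O[𝓝 0] fun x => ‖x‖ ^ k := by
  have h1 : (fun x : σ → 𝕜 => MvPolynomial.eval x (MvPowerSeries.truncTotal k g' - p)) =O[𝓝 0]
      fun x => ‖x‖ ^ k := by
    refine poly_isBigO fun d hd => ?_
    have := le_order_iff.1 hp d hd
    rw [map_sub, MvPolynomial.coeff_coe] at this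
    rwa [MvPolynomial.coeff_sub, MvPowerSeries.coeff_truncTotal _ hd]
  refine ((h k).add h1).congr_left fun x => ?_
  simp

/-- a Taylor polynomial agrees with the series -/
theorem Exp.le_order_sub {g : (σ → 𝕜) → 𝕜} {g' : MvPowerSeries σ 𝕜} (h : Exp g g') {k : ℕ}
    {p : MvPolynomial σ 𝕜}
    (hp : (fun x => g x - MvPolynomial.eval x p) =O[𝓝 0] fun x => ‖x‖ ^ k) :
    (k : ℕ∞) ≤ (g' - (p : MvPowerSeries σ 𝕜)).order := by
  refine le_order_iff.2 fun d hd => ?_
  have h1 : (fun x : σ → 𝕜 => MvPolynomial.eval x (MvPowerSeries.truncTotal k g' - p)) =O[𝓝 0]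
      fun x => ‖x‖ ^ k := by
    refine (hp.sub (h k)).congr_left fun x => ?_
    simp
  have := coeff_eq_zero_of_isBigO h1 d hd
  rw [MvPolynomial.coeff_sub, MvPowerSeries.coeff_truncTotal _ hd] at this
  rwa [map_sub, MvPolynomial.coeff_coe]

theorem exp_of_poly {g : (σ → 𝕜) → 𝕜} {g' : MvPowerSeries σ 𝕜}
    (h : ∀ k : ℕ, ∃ p : MvPolynomial σ 𝕜, (k : ℕ∞) ≤ (g' - (p : MvPowerSeries σ 𝕜)).order ∧
      (fun x => g x - MvPolynomial.eval x p) =O[𝓝 0] fun x => ‖x‖ ^ k) : Exp g g' := by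
  intro k
  obtain ⟨p, h1, h2⟩ := h k
  have h3 : (fun x : σ → 𝕜 => MvPolynomial.eval x (p - MvPowerSeries.truncTotal k g')) =O[𝓝 0]
      fun x => ‖x‖ ^ k := by
    refine poly_isBigO fun d hd => ?_
    have := le_order_iff.1 h1 d hd
    rw [map_sub, MvPolynomial.coeff_coe, sub_eq_zero] at this
    rw [MvPolynomial.coeff_sub, MvPowerSeries.coeff_truncTotal _ hd, this, sub_self]
  refine (h2.add h3).congr_left fun x => ?_
  simp

theorem Exp.isBigO_iff {g : (σ → 𝕜) → 𝕜} {g' : MvPowerSeries σ 𝕜} (h : Exp g g') {k : ℕ} :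
    (g =O[𝓝 0] fun x => ‖x‖ ^ k) ↔ (k : ℕ∞) ≤ g'.order :=
  ⟨fun h1 => by simpa using h.le_order_sub (p := 0) (by simpa using h1),
    fun h1 => by simpa using h.sub_isBigO (p := 0) (by simpa using h1)⟩

theorem Exp.isBigO_one {g : (σ → 𝕜) → 𝕜} {g' : MvPowerSeries σ 𝕜} (h : Exp g g') :
    g =O[𝓝 0] fun _ => (1 : ℝ) := by
  simpa using (h.isBigO_iff (k := 0)).2 (by simp)

theorem Exp.unique {g : (σ → 𝕜) → 𝕜} {g' g'' : MvPowerSeries σ 𝕜} (h : Exp g g')
    (h' : Exp g g'') : g' = g'' := by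
  ext d
  have := le_order_iff.1 (h.le_order_sub (h' (d.degree + 1))) d (Nat.lt_succ_self _)
  rwa [map_sub, MvPolynomial.coeff_coe, MvPowerSeries.coeff_truncTotal _ (Nat.lt_succ_self _),
    sub_eq_zero] at this

theorem Exp.congr {f g : (σ → 𝕜) → 𝕜} {g' : MvPowerSeries σ 𝕜} (h : Exp g g')
    (hfg : g =ᶠ[𝓝 0] f) : Exp f g' := fun k =>
  (h k).congr' (hfg.mono fun x hx => by simp only [hx]) EventuallyEq.rfl

/-- a function which is flat relative to `g` has the same expansion -/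
theorem Exp.of_flat {f g : (σ → 𝕜) → 𝕜} {g' : MvPowerSeries σ 𝕜} (h : Exp g g')
    (hfg : ∀ k : ℕ, (fun x => f x - g x) =O[𝓝 0] fun x => ‖x‖ ^ k) : Exp f g' := fun k =>
  ((hfg k).add (h k)).congr_left fun x => by ring

theorem Exp.poly (p : MvPolynomial σ 𝕜) :
    Exp (fun x => MvPolynomial.eval x p) (p : MvPowerSeries σ 𝕜) :=
  exp_of_poly fun k => ⟨p, by simp, by simp [isBigO_zero]⟩

theorem Exp.const (c : 𝕜) : Exp (fun _ : σ → 𝕜 => c) (MvPowerSeries.C c) := by
  simpa using Exp.poly (MvPolynomial.C c : MvPolynomial σ 𝕜)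

theorem Exp.zero : Exp (fun _ : σ → 𝕜 => (0 : 𝕜)) 0 := by simpa using Exp.const (σ := σ) (0 : 𝕜)

theorem Exp.one : Exp (fun _ : σ → 𝕜 => (1 : 𝕜)) 1 := by simpa using Exp.const (σ := σ) (1 : 𝕜)

theorem Exp.X (i : σ) : Exp (fun x : σ → 𝕜 => x i) (MvPowerSeries.X i) := by
  simpa using Exp.poly (MvPolynomial.X i : MvPolynomial σ 𝕜)

theorem Exp.add {f g : (σ → 𝕜) → 𝕜} {f' g' : MvPowerSeries σ 𝕜} (hf : Exp f f') (hg : Exp g g') :
    Exp (fun x => f x + g x) (f' + g') := fun k =>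
  ((hf k).add (hg k)).congr_left fun x => by
    simp only [map_add]
    ring

theorem Exp.neg {f : (σ → 𝕜) → 𝕜} {f' : MvPowerSeries σ 𝕜} (hf : Exp f f') :
    Exp (fun x => -f x) (-f') := fun k =>
  (hf k).neg_left.congr_left fun x => by
    simp only [map_neg]
    ring

theorem Exp.sub {f g : (σ → 𝕜) → 𝕜} {f' g' : MvPowerSeries σ 𝕜} (hf : Exp f f') (hg : Exp g g') :
    Exp (fun x => f x - g x) (f' - g') := by
  simpa only [sub_eq_add_neg] using hf.add hg.neg

theorem Exp.mul {f g : (σ → 𝕜) → 𝕜} {f' g' : MvPowerSeries σ 𝕜} (hf : Exp f f') (hg : Exp g g') :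
    Exp (fun x => f x * g x) (f' * g') := by
  refine exp_of_poly fun k => ?_
  set p := MvPowerSeries.truncTotal k f'
  set q := MvPowerSeries.truncTotal k g'
  refine ⟨p * q, ?_, ?_⟩
  · have : f' * g' - ((p * q : MvPolynomial σ 𝕜) : MvPowerSeries σ 𝕜)
        = (f' - p) * g' + p * (g' - q) := by
      rw [MvPolynomial.coe_mul]
      ring
    rw [this]
    exact le_order_add (((order_sub_trunc f' k).trans le_self_add).trans MvPowerSeries.le_order_mul)
      (((order_sub_trunc g' k).trans le_add_self).trans MvPowerSeries.le_order_mul)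
  · refine IsBigO.congr_left (f₁ := fun x => (f x - MvPolynomial.eval x p) * g x
      + MvPolynomial.eval x p * (g x - MvPolynomial.eval x q)) ?_ fun x => ?_
    · refine IsBigO.add ?_ ?_
      · simpa using (hf k).mul hg.isBigO_one
      · simpa using (poly_isBigO_one p).mul (hg k)
    · simp only [map_mul]
      ring

theorem Exp.const_mul {f : (σ → 𝕜) → 𝕜} {f' : MvPowerSeries σ 𝕜} (hf : Exp f f') (c : 𝕜) :
    Exp (fun x => c * f x) (c • f') := by
  rw [MvPowerSeries.smul_eq_C_mul]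
  exact (Exp.const c).mul hf

theorem Exp.pow {f : (σ → 𝕜) → 𝕜} {f' : MvPowerSeries σ 𝕜} (hf : Exp f f') (n : ℕ) :
    Exp (fun x => f x ^ n) (f' ^ n) := by
  induction n with
  | zero => simpa using Exp.one
  | succ n ih => simpa only [pow_succ] using ih.mul hf

theorem Exp.sum {ι : Type*} (s : Finset ι) {f : ι → (σ → 𝕜) → 𝕜} {f' : ι → MvPowerSeries σ 𝕜}
    (hf : ∀ i ∈ s, Exp (f i) (f' i)) : Exp (fun x => ∑ i ∈ s, f i x) (∑ i ∈ s, f' i) := by
  classical
  induction s using Finset.induction_on with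
  | empty => simpa using Exp.zero
  | insert a s ha ih =>
    simp only [Finset.sum_insert ha]
    exact (hf a (Finset.mem_insert_self _ _)).add
      (ih fun i hi => hf i (Finset.mem_insert_of_mem hi))

theorem Exp.prod {ι : Type*} (s : Finset ι) {f : ι → (σ → 𝕜) → 𝕜} {f' : ι → MvPowerSeries σ 𝕜}
    (hf : ∀ i ∈ s, Exp (f i) (f' i)) : Exp (fun x => ∏ i ∈ s, f i x) (∏ i ∈ s, f' i) := by
  classical
  induction s using Finset.induction_on with
  | empty => simpa using Exp.one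
  | insert a s ha ih =>
    simp only [Finset.prod_insert ha]
    exact (hf a (Finset.mem_insert_self _ _)).mul
      (ih fun i hi => hf i (Finset.mem_insert_of_mem hi))

theorem Exp.mvPoly {ι : Type*} {Φ : (σ → 𝕜) → ι → 𝕜} {φ : ι → MvPowerSeries σ 𝕜}
    (h : ∀ i, Exp (fun x => Φ x i) (φ i)) (p : MvPolynomial ι 𝕜) :
    Exp (fun x => MvPolynomial.eval (Φ x) p) (MvPolynomial.aeval φ p) := by
  induction p using MvPolynomial.induction_on with
  | C a => simpa [MvPowerSeries.algebraMap_apply] using Exp.const (σ := σ) a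
  | add p q hp hq => simpa using hp.add hq
  | mul_X p i hp => simpa using hp.mul (h i)

theorem Exp.constantCoeff {g : (σ → 𝕜) → 𝕜} {g' : MvPowerSeries σ 𝕜} (h : Exp g g') :
    MvPowerSeries.constantCoeff g' = g 0 := by
  obtain ⟨c, hc⟩ := (h 1).bound
  have h1 := hc.self_of_nhds
  simp only [norm_zero, pow_one, mul_zero, norm_le_zero_iff, sub_eq_zero] at h1
  rw [h1, MvPolynomial.eval_zero, MvPowerSeries.constantCoeff_truncTotal_eq_ite]
  simp

omit [Fintype τ] in
theorem le_order_subst {φ : σ → MvPowerSeries τ 𝕜}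
    (h0 : ∀ i, MvPowerSeries.constantCoeff (φ i) = 0) (g : MvPowerSeries σ 𝕜) :
    g.order ≤ (MvPowerSeries.subst φ g).order := by
  refine le_trans ?_
    (MvPowerSeries.le_order_subst (MvPowerSeries.hasSubst_of_constantCoeff_zero h0) g)
  have h2 : ∀ i, 1 ≤ (φ i).order := fun i =>
    MvPowerSeries.one_le_order_iff_constCoeff_eq_zero.2 (h0 i)
  calc g.order = 1 * g.order := (one_mul _).symm
    _ ≤ _ := mul_le_mul' (le_iInf h2) le_rfl

/-- expansions commute with substitution -/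
theorem Exp.subst {g : (σ → 𝕜) → 𝕜} {g' : MvPowerSeries σ 𝕜} (hg : Exp g g')
    {Φ : (τ → 𝕜) → σ → 𝕜} {φ : σ → MvPowerSeries τ 𝕜} (h : ∀ i, Exp (fun y => Φ y i) (φ i))
    (h0 : ∀ i, MvPowerSeries.constantCoeff (φ i) = 0) :
    Exp (fun y => g (Φ y)) (MvPowerSeries.subst φ g') := by
  have hs := MvPowerSeries.hasSubst_of_constantCoeff_zero h0
  have hΦ : Φ =O[𝓝 0] fun y : τ → 𝕜 => ‖y‖ := by
    rw [isBigO_pi]
    intro i
    simpa using ((h i).isBigO_iff (k := 1)).2
      (by simpa using MvPowerSeries.one_le_order_iff_constCoeff_eq_zero.2 (h0 i))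
  have hΦ0 : Tendsto Φ (𝓝 0) (𝓝 0) := hΦ.trans_tendsto tendsto_norm_zero
  refine exp_of_poly fun k => ?_
  set p := MvPowerSeries.truncTotal k g'
  refine ⟨MvPowerSeries.truncTotal k (MvPolynomial.aeval φ p), ?_, ?_⟩
  · have h3 := (order_sub_trunc g' k).trans (le_order_subst h0 _)
    rw [MvPowerSeries.subst_sub hs, MvPowerSeries.subst_coe] at h3
    have := le_order_add h3 (order_sub_trunc (MvPolynomial.aeval φ p) k)
    rwa [sub_add_sub_cancel] at this
  · have h3 := ((hg k).comp_tendsto hΦ0).trans (hΦ.norm_left.pow k)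
    refine (h3.add (Exp.mvPoly h p k)).congr_left fun y => ?_
    simp [p]

/-! ### analytic functions -/

theorem exists_homog [DecidableEq σ] {n : ℕ} (L : (σ → 𝕜) [×n]→L[𝕜] 𝕜) :
    ∃ p : MvPolynomial σ 𝕜, (∀ d : σ →₀ ℕ, d.degree ≠ n → p.coeff d = 0) ∧
      ∀ x, MvPolynomial.eval x p = L fun _ => x := by
  refine ⟨∑ r : Fin n → σ, MvPolynomial.C (L fun j => Pi.single (r j) 1) *
    ∏ j, MvPolynomial.X (r j), fun d hd => ?_, fun x => ?_⟩
  · refine MvPolynomial.IsHomogeneous.coeff_eq_zero (n := n) ?_ hd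
    refine MvPolynomial.IsHomogeneous.sum _ _ _ fun r _ => MvPolynomial.IsHomogeneous.C_mul ?_ _
    have := MvPolynomial.IsHomogeneous.prod Finset.univ (fun j => MvPolynomial.X (R := 𝕜) (r j))
      (fun _ => 1) fun j _ => MvPolynomial.isHomogeneous_X 𝕜 (r j)
    simpa using this
  · have h1 : x = ∑ i, x i • (Pi.single i 1 : σ → 𝕜) := by
      ext j
      simp [Pi.single_apply]
    conv_rhs => rw [h1]
    rw [L.map_sum]
    simp only [map_sum, map_mul, MvPolynomial.eval_C, map_prod, MvPolynomial.eval_X,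
      ContinuousMultilinearMap.map_smul_univ, smul_eq_mul]
    exact Finset.sum_congr rfl fun r _ => mul_comm _ _

theorem exists_exp {f : (σ → 𝕜) → 𝕜} (hf : AnalyticAt 𝕜 f 0) : ∃ f', Exp f f' := by
  classical
  obtain ⟨p, hp⟩ := hf
  choose q h1 h2 using fun n => exists_homog (p n)
  obtain ⟨g, hg⟩ : ∃ g : MvPowerSeries σ 𝕜,
      ∀ d, MvPowerSeries.coeff d g = (q d.degree).coeff d :=
    ⟨fun d => (q d.degree).coeff d, fun _ => rfl⟩
  refine ⟨g, exp_of_poly fun k =>
    ⟨∑ n ∈ Finset.range k, q n, le_order_iff.2 fun d hd => ?_, ?_⟩⟩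
  · rw [map_sub, MvPolynomial.coeff_coe, MvPolynomial.coeff_sum, hg,
      Finset.sum_eq_single d.degree (fun n _ hn => h1 n d hn.symm)
        (fun h => absurd (Finset.mem_range.2 hd) h), sub_self]
  · refine (hp.isBigO_sub_partialSum_pow k).congr_left fun x => ?_
    simp [FormalMultilinearSeries.partialSum, h2]

theorem hasDerivAt_update [DecidableEq σ] {f : (σ → 𝕜) → 𝕜} {x : σ → 𝕜} (i : σ) {s : 𝕜}
    (hf : DifferentiableAt 𝕜 f (Function.update x i s)) :
    HasDerivAt (fun s => f (Function.update x i s))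
      (fderiv 𝕜 f (Function.update x i s) (Pi.single i 1)) s :=
  hf.hasFDerivAt.comp_hasDerivAt s (_root_.hasDerivAt_update x i s)

theorem differentiable_eval (p : MvPolynomial σ 𝕜) :
    Differentiable 𝕜 fun x : σ → 𝕜 => MvPolynomial.eval x p := fun x =>
  (AnalyticOnNhd.eval_mvPolynomial p x (mem_univ x)).differentiableAt

theorem fderiv_eval [DecidableEq σ] (p : MvPolynomial σ 𝕜) (x : σ → 𝕜) (i : σ) :
    fderiv 𝕜 (fun x : σ → 𝕜 => MvPolynomial.eval x p) x (Pi.single i 1)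
      = MvPolynomial.eval x (MvPolynomial.pderiv i p) := by
  induction p using MvPolynomial.induction_on with
  | C a => simp
  | add p q hp hq =>
    simp only [map_add]
    rw [fderiv_fun_add (differentiable_eval p x) (differentiable_eval q x),
      add_apply, hp, hq]
  | mul_X p j hp =>
    simp only [map_mul, MvPolynomial.eval_X, Derivation.leibniz, smul_eq_mul, map_add]
    rw [fderiv_fun_mul (differentiable_eval p x) (differentiableAt_apply j x)]
    simp only [add_apply, smul_apply, smul_eq_mul, hp]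
    have : fderiv 𝕜 (fun x : σ → 𝕜 => x j) x (Pi.single i 1)
        = MvPolynomial.eval x (MvPolynomial.pderiv i (MvPolynomial.X j : MvPolynomial σ 𝕜)) := by
      rw [(hasFDerivAt_apply j x).fderiv, MvPolynomial.pderiv_X]
      by_cases h : j = i
      · subst h
        simp
      · simp [h]
    rw [this]

/-- integration in the direction `i` gains one order -/
theorem isBigO_sub_update [DecidableEq σ] {f : (σ → 𝕜) → 𝕜} (i : σ)
    (hf : ∀ᶠ x in 𝓝 (0 : σ → 𝕜), DifferentiableAt 𝕜 f x) {k : ℕ}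
    (hd : (fun x => fderiv 𝕜 f x (Pi.single i 1)) =O[𝓝 0] fun x => ‖x‖ ^ k) :
    (fun x => f x - f (Function.update x i 0)) =O[𝓝 0] fun x => ‖x‖ ^ (k + 1) := by
  obtain ⟨c, hc0, hc⟩ := hd.exists_pos
  obtain ⟨r, hr, h⟩ := Metric.eventually_nhds_iff_ball.1 (hf.and hc.bound)
  refine IsBigO.of_bound c ?_
  filter_upwards [Metric.ball_mem_nhds (0 : σ → 𝕜) hr] with x hx
  have hu : ∀ s ∈ Metric.closedBall (0 : 𝕜) ‖x‖, ‖Function.update x i s‖ ≤ ‖x‖ := by
    intro s hs
    rw [mem_closedBall_zero_iff] at hs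
    refine (pi_norm_le_iff_of_nonneg (norm_nonneg _)).2 fun j => ?_
    by_cases hj : j = i
    · subst hj
      simpa using hs
    · simpa [hj] using norm_le_pi_norm x j
  have hb : ∀ s ∈ Metric.closedBall (0 : 𝕜) ‖x‖, Function.update x i s ∈ Metric.ball 0 r :=
    fun s hs => mem_ball_zero_iff.2 ((hu s hs).trans_lt (mem_ball_zero_iff.1 hx))
  have := (convex_closedBall (0 : 𝕜) ‖x‖).norm_image_sub_le_of_norm_hasDerivWithin_le
    (f := fun s => f (Function.update x i s)) (C := c * ‖x‖ ^ k)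
    (fun s hs => (hasDerivAt_update i (h _ (hb s hs)).1).hasDerivWithinAt)
    (fun s hs => by
      refine (h _ (hb s hs)).2.trans (mul_le_mul_of_nonneg_left ?_ hc0.le)
      rw [norm_pow, norm_norm]
      exact pow_le_pow_left₀ (norm_nonneg _) (hu s hs) _)
    (Metric.mem_closedBall_self (norm_nonneg _))
    (mem_closedBall_zero_iff.2 (norm_le_pi_norm x i))
  simp only [Function.update_eq_self, sub_zero] at this
  refine this.trans ?_
  rw [norm_pow, norm_norm, pow_succ, ← mul_assoc]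
  exact mul_le_mul_of_nonneg_left (norm_le_pi_norm x i) (by positivity)

theorem exists_prim [DecidableEq σ] (i : σ) (r : MvPolynomial σ 𝕜) :
    ∃ P : MvPolynomial σ 𝕜, MvPolynomial.pderiv i P = r ∧
      ∀ x : σ → 𝕜, x i = 0 → MvPolynomial.eval x P = 0 := by
  induction r using MvPolynomial.induction_on' with
  | monomial d a =>
    refine ⟨MvPolynomial.monomial (d + Finsupp.single i 1) (a / (d i + 1)), ?_, fun x hx => ?_⟩
    · have : ((d i : 𝕜) + 1) ≠ 0 := by exact_mod_cast Nat.succ_ne_zero (d i)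
      rw [MvPolynomial.pderiv_monomial]
      simp [div_mul_cancel₀ _ this]
    · rw [MvPolynomial.eval_monomial, Finsupp.prod_add_index' (by simp) (fun _ _ _ => pow_add _ _ _)]
      simp [hx]
  | add p q hp hq =>
    obtain ⟨P, h1, h2⟩ := hp
    obtain ⟨Q, h3, h4⟩ := hq
    exact ⟨P + Q, by rw [map_add, h1, h3], fun x hx => by rw [map_add, h2 x hx, h4 x hx, add_zero]⟩

/-- expansions commute with partial derivatives -/
theorem Exp.eq_pderiv [DecidableEq σ] {f : (σ → 𝕜) → 𝕜} {f' g' : MvPowerSeries σ 𝕜} (i : σ)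
    (hd : ∀ᶠ x in 𝓝 (0 : σ → 𝕜), DifferentiableAt 𝕜 f x) (hf : Exp f f')
    (hg : Exp (fun x => fderiv 𝕜 f x (Pi.single i 1)) g') :
    g' = MvPowerSeries.pderiv 𝕜 i f' := by
  ext d
  set k := d.degree + 1 with hk
  set p := MvPowerSeries.truncTotal (k + 1) f' with hp
  obtain ⟨P, h1, h2⟩ := exists_prim i (MvPowerSeries.truncTotal k g' - MvPolynomial.pderiv i p)
  have h3 := isBigO_sub_update (f := fun x => f x - MvPolynomial.eval x (p + P)) i
    (hd.mono fun x hx => hx.sub (differentiable_eval _ x)) (k := k) (by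
      refine (hg k).congr' (hd.mono fun x hx => ?_) EventuallyEq.rfl
      simp only
      rw [fderiv_fun_sub hx (differentiable_eval _ x), sub_apply, fderiv_eval,
        map_add, h1, add_sub_cancel])
  have hu : (fun x : σ → 𝕜 => Function.update x i 0) =O[𝓝 0] fun x => ‖x‖ := by
    refine IsBigO.of_bound 1 (Eventually.of_forall fun x => ?_)
    rw [norm_norm, one_mul]
    refine (pi_norm_le_iff_of_nonneg (norm_nonneg _)).2 fun j => ?_
    by_cases hj : j = i
    · subst hj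
      simp
    · simpa [hj] using norm_le_pi_norm x j
  have h4 := ((hf (k + 1)).comp_tendsto (hu.trans_tendsto tendsto_norm_zero)).trans
    (hu.norm_left.pow (k + 1))
  have h5 : (fun x : σ → 𝕜 => MvPolynomial.eval x P) =O[𝓝 0] fun x => ‖x‖ ^ (k + 1) := by
    refine (((hf (k + 1)).sub h4).sub h3).congr_left fun x => ?_
    simp only [Function.comp, map_add, h2 (Function.update x i 0) (by simp), ← hp]
    ring
  have h6 : (d + Finsupp.single i 1).degree < k + 1 := by simp [hk]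
  have h7 := congrArg (MvPolynomial.coeff d) h1
  rw [MvPolynomial.coeff_pderiv, coeff_eq_zero_of_isBigO h5 _ h6, zero_mul, MvPolynomial.coeff_sub,
    MvPowerSeries.coeff_truncTotal _ (Nat.lt_succ_self _), MvPolynomial.coeff_pderiv, hp,
    MvPowerSeries.coeff_truncTotal _ h6] at h7
  rw [MvPowerSeries.coeff_pderiv]
  exact (sub_eq_zero.1 h7.symm)

theorem analyticAt_pd [DecidableEq σ] {f : (σ → 𝕜) → 𝕜} {x : σ → 𝕜} (hf : AnalyticAt 𝕜 f x)
    (i : σ) : AnalyticAt 𝕜 (fun x => fderiv 𝕜 f x (Pi.single i 1)) x :=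
  ((ContinuousLinearMap.apply 𝕜 𝕜 (Pi.single i 1 : σ → 𝕜)).analyticAt _).comp hf.fderiv

theorem Exp.pderiv [DecidableEq σ] {f : (σ → 𝕜) → 𝕜} {f' : MvPowerSeries σ 𝕜}
    (ha : AnalyticAt 𝕜 f 0) (hf : Exp f f') (i : σ) :
    Exp (fun x => fderiv 𝕜 f x (Pi.single i 1)) (MvPowerSeries.pderiv 𝕜 i f') := by
  obtain ⟨g', hg⟩ := exists_exp (analyticAt_pd ha i)
  rwa [← hf.eq_pderiv i (ha.eventually_analyticAt.mono fun x hx => hx.differentiableAt) hg]

theorem Exp.eventually_zero {f : (σ → 𝕜) → 𝕜} (ha : AnalyticAt 𝕜 f 0) (hf : Exp f 0) :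
    f =ᶠ[𝓝 0] 0 := by
  obtain ⟨p, hp⟩ := ha
  have h1 : ∀ n (x : σ → 𝕜), (p n fun _ => x) = 0 := by
    intro n
    induction n using Nat.strong_induction_on with
    | _ n ih =>
      refine fun x => IsBigO.continuousMultilinearMap_apply_eq_zero ?_ x
      refine (((hf.isBigO_iff (k := n + 1)).2 (by simp)).sub
        (hp.isBigO_sub_partialSum_pow (n + 1))).congr_left fun y => ?_
      rw [zero_add, sub_sub_cancel, FormalMultilinearSeries.partialSum, Finset.sum_range_succ,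
        Finset.sum_eq_zero fun m hm => ih m (Finset.mem_range.1 hm) y, zero_add]
  filter_upwards [hp.eventually_hasSum] with y hy
  simp only [h1, zero_add] at hy
  exact hy.unique hasSum_zero

/-! ### the Taylor series -/

open Classical in
/-- the Taylor series at `0` -/
noncomputable def tay (f : (σ → 𝕜) → 𝕜) : MvPowerSeries σ 𝕜 :=
  if h : ∃ f', Exp f f' then h.choose else 0

theorem Exp.tay_eq {f : (σ → 𝕜) → 𝕜} {f' : MvPowerSeries σ 𝕜} (h : Exp f f') : tay f = f' := by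
  have h1 : ∃ f', Exp f f' := ⟨f', h⟩
  rw [tay, dif_pos h1]
  exact h1.choose_spec.unique h

theorem exp_tay {f : (σ → 𝕜) → 𝕜} (hf : AnalyticAt 𝕜 f 0) : Exp f (tay f) := by
  obtain ⟨f', h⟩ := exists_exp hf
  rwa [h.tay_eq]

section
variable {f g : (σ → 𝕜) → 𝕜}

theorem tay_congr (h : f =ᶠ[𝓝 0] g) : tay f = tay g := by
  by_cases h1 : ∃ f', Exp f f'
  · obtain ⟨f', h1⟩ := h1
    rw [h1.tay_eq, (h1.congr h).tay_eq]
  · rw [tay, tay, dif_neg h1, dif_neg fun ⟨g', h2⟩ => h1 ⟨g', h2.congr h.symm⟩]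

theorem tay_poly (p : MvPolynomial σ 𝕜) : tay (fun x => MvPolynomial.eval x p) = p :=
  (Exp.poly p).tay_eq

theorem tay_const (c : 𝕜) : tay (fun _ : σ → 𝕜 => c) = MvPowerSeries.C c := (Exp.const c).tay_eq

theorem tay_X (i : σ) : tay (fun x : σ → 𝕜 => x i) = MvPowerSeries.X i := (Exp.X i).tay_eq

theorem tay_add (hf : AnalyticAt 𝕜 f 0) (hg : AnalyticAt 𝕜 g 0) :
    tay (fun x => f x + g x) = tay f + tay g := ((exp_tay hf).add (exp_tay hg)).tay_eq

theorem tay_sub (hf : AnalyticAt 𝕜 f 0) (hg : AnalyticAt 𝕜 g 0) :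
    tay (fun x => f x - g x) = tay f - tay g := ((exp_tay hf).sub (exp_tay hg)).tay_eq

theorem tay_neg (hf : AnalyticAt 𝕜 f 0) : tay (fun x => -f x) = -tay f :=
  (exp_tay hf).neg.tay_eq

theorem tay_mul (hf : AnalyticAt 𝕜 f 0) (hg : AnalyticAt 𝕜 g 0) :
    tay (fun x => f x * g x) = tay f * tay g := ((exp_tay hf).mul (exp_tay hg)).tay_eq

theorem tay_pow (hf : AnalyticAt 𝕜 f 0) (n : ℕ) : tay (fun x => f x ^ n) = tay f ^ n :=
  ((exp_tay hf).pow n).tay_eq

theorem tay_sum {ι : Type*} (s : Finset ι) {F : ι → (σ → 𝕜) → 𝕜}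
    (hF : ∀ i ∈ s, AnalyticAt 𝕜 (F i) 0) : tay (fun x => ∑ i ∈ s, F i x) = ∑ i ∈ s, tay (F i) :=
  (Exp.sum s fun i hi => exp_tay (hF i hi)).tay_eq

theorem constantCoeff_tay (hf : AnalyticAt 𝕜 f 0) : MvPowerSeries.constantCoeff (tay f) = f 0 :=
  (exp_tay hf).constantCoeff

theorem tay_pderiv [DecidableEq σ] (hf : AnalyticAt 𝕜 f 0) (i : σ) :
    tay (fun x => fderiv 𝕜 f x (Pi.single i 1)) = MvPowerSeries.pderiv 𝕜 i (tay f) :=
  ((exp_tay hf).pderiv hf i).tay_eq

theorem tay_comp (hf : AnalyticAt 𝕜 f 0) {Φ : (τ → 𝕜) → σ → 𝕜} (hΦ : AnalyticAt 𝕜 Φ 0)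
    (h0 : Φ 0 = 0) : tay (fun y => f (Φ y)) =
      MvPowerSeries.subst (fun i => tay fun y => Φ y i) (tay f) :=
  ((exp_tay hf).subst (fun i => exp_tay (analyticAt_pi_iff.1 hΦ i)) fun i => by
    rw [constantCoeff_tay (analyticAt_pi_iff.1 hΦ i), h0, Pi.zero_apply]).tay_eq

theorem isBigO_iff_tay (hf : AnalyticAt 𝕜 f 0) {k : ℕ} :
    (f =O[𝓝 0] fun x => ‖x‖ ^ k) ↔ (k : ℕ∞) ≤ (tay f).order := (exp_tay hf).isBigO_iff

theorem tay_eq_zero_iff (hf : AnalyticAt 𝕜 f 0) : tay f = 0 ↔ f =ᶠ[𝓝 0] 0 :=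
  ⟨fun h => Exp.eventually_zero hf (h ▸ exp_tay hf), fun h => (Exp.zero.congr h.symm).tay_eq⟩

theorem tay_inj (hf : AnalyticAt 𝕜 f 0) (hg : AnalyticAt 𝕜 g 0) :
    tay f = tay g ↔ f =ᶠ[𝓝 0] g := by
  refine ⟨fun h => ?_, tay_congr⟩
  have := (tay_eq_zero_iff (hf.fun_sub hg)).1 (by rw [tay_sub hf hg, h, sub_self])
  exact this.mono fun x hx => sub_eq_zero.1 hx

end

end Vale.Agent.P218N.F
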