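import Vale.Agent.P218N.F.Tay
import Vale.Agent.Lib.RealArc.Ana

/-! # Expansions along curves, real parts, orders along coordinate subspaces, and the power
inequality for a family of analytic truncations -/

open Filter Topology Asymptotics Set
open scoped PowerSeries

namespace Vale.Agent.P218N.F

variable {𝕜 : Type*} [RCLike 𝕜] {σ τ : Type*} [Fintype σ] [Fintype τ]

/-! ### curves -/

theorem eval_unit (p : MvPolynomial Unit 𝕜) (y : Unit → 𝕜) :
    MvPolynomial.eval y p = (MvPolynomial.aeval (fun _ => (Polynomial.X : Polynomial 𝕜)) p).eval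
      (y ()) := by
  induction p using MvPolynomial.induction_on with
  | C a => simp
  | add p q hp hq => simp [hp, hq]
  | mul_X p i hp => simp [hp]

theorem exp_poly1 (q : Polynomial 𝕜) :
    Exp (fun y : Unit → 𝕜 => q.eval (y ())) ((q : 𝕜⟦X⟧) : MvPowerSeries Unit 𝕜) := by
  induction q using Polynomial.induction_on' with
  | add p q hp hq =>
    simp only [Polynomial.eval_add, Polynomial.coe_add]
    exact hp.add hq
  | monomial n a =>
    have := (Exp.const (σ := Unit) a).mul ((Exp.X (𝕜 := 𝕜) ()).pow n)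
    simp only [← Polynomial.C_mul_X_pow_eq_monomial, Polynomial.coe_mul,
      Polynomial.coe_pow, Polynomial.coe_C, Polynomial.coe_X, Polynomial.eval_mul,
      Polynomial.eval_pow, Polynomial.eval_C, Polynomial.eval_X]
    exact this

theorem le_order_unit {u : 𝕜⟦X⟧} {k : ℕ} :
    (k : ℕ∞) ≤ MvPowerSeries.order (σ := Unit) u ↔ PowerSeries.X ^ k ∣ u := by
  rw [le_order_iff, PowerSeries.X_pow_dvd_iff]
  refine ⟨fun h m hm => h (Finsupp.single () m) (by simpa using hm), fun h d hd => ?_⟩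
  have h1 : d = Finsupp.single () (d ()) := Finsupp.unique_single d
  rw [h1] at hd ⊢
  exact h _ (by simpa using hd)

/-- the expansion of a function of one variable, in terms of `PowerSeries.trunc` -/
theorem Exp.isBigO_trunc {u : 𝕜 → 𝕜} {u' : 𝕜⟦X⟧}
    (h : Exp (fun y : Unit → 𝕜 => u (y ())) (u' : MvPowerSeries Unit 𝕜)) (k : ℕ) :
    (fun s => u s - (PowerSeries.trunc k u').eval s) =O[𝓝 0] fun s => ‖s‖ ^ k := by
  have h1 := ((h.sub (exp_poly1 (PowerSeries.trunc k u'))).isBigO_iff (k := k)).2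
    (le_order_unit.2 (PowerSeries.X_pow_dvd_iff.2 fun m hm => by
      simp [PowerSeries.coeff_trunc, hm]))
  have h2 : Tendsto (fun s : 𝕜 => fun _ : Unit => s) (𝓝 0) (𝓝 0) :=
    (continuous_pi fun _ => continuous_id).tendsto' _ _ rfl
  refine (h1.comp_tendsto h2).congr (fun s => rfl) fun s => ?_
  simp

theorem exp_of_isBigO_trunc {u : 𝕜 → 𝕜} {u' : 𝕜⟦X⟧}
    (h : ∀ k, (fun s => u s - (PowerSeries.trunc k u').eval s) =O[𝓝 0] fun s => ‖s‖ ^ k) :
    Exp (fun y : Unit → 𝕜 => u (y ())) (u' : MvPowerSeries Unit 𝕜) := by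
  intro k
  have h2 : Tendsto (fun y : Unit → 𝕜 => y ()) (𝓝 0) (𝓝 0) := (continuous_apply ()).tendsto 0
  have h1 := (exp_poly1 (PowerSeries.trunc k u')).sub_isBigO (k := k)
    (p := MvPowerSeries.truncTotal k (u' : MvPowerSeries Unit 𝕜)) (by
      have h3 : (k : ℕ∞) ≤ MvPowerSeries.order (σ := Unit)
          (((PowerSeries.trunc k u' : Polynomial 𝕜) : 𝕜⟦X⟧) - u') :=
        le_order_unit.2 (PowerSeries.X_pow_dvd_iff.2 fun m hm => by
          simp [PowerSeries.coeff_trunc, hm])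
      have := le_order_add h3 (order_sub_trunc (u' : MvPowerSeries Unit 𝕜) k)
      rwa [sub_add_sub_cancel] at this)
  have h4 : (fun y : Unit → 𝕜 => ‖y ()‖ ^ k) =O[𝓝 0] fun y => ‖y‖ ^ k :=
    IsBigO.of_bound 1 (Eventually.of_forall fun y => by
      simpa using pow_le_pow_left₀ (norm_nonneg _) (norm_le_pi_norm y ()) k)
  refine ((((h k).comp_tendsto h2).trans h4).add h1).congr_left fun y => ?_
  simp

/-- expansion along a polynomial curve through `0` -/
theorem Exp.curve {g : (σ → 𝕜) → 𝕜} {g' : MvPowerSeries σ 𝕜} (hg : Exp g g')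
    (c : σ → Polynomial 𝕜) (h0 : ∀ i, (c i).coeff 0 = 0) (k : ℕ) :
    (fun s => g (fun i => (c i).eval s) - (PowerSeries.trunc k
      (MvPowerSeries.subst (τ := Unit) (S := 𝕜) (fun i => (c i : 𝕜⟦X⟧)) g')).eval s) =O[𝓝 0]
      fun s => ‖s‖ ^ k :=
  Exp.isBigO_trunc (u := fun s => g fun i => (c i).eval s)
    (hg.subst (Φ := fun y i => (c i).eval (y ())) (fun i => exp_poly1 (c i)) fun i => by
      rw [← h0 i, ← Polynomial.coeff_coe, PowerSeries.coeff_zero_eq_constantCoeff]
      rfl) k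

/-! ### real and imaginary parts -/

/-- coefficientwise image under an additive map -/
def cmap (L : ℂ →+ ℝ) (g : MvPowerSeries σ ℂ) : MvPowerSeries σ ℝ := fun d =>
  L (MvPowerSeries.coeff d g)

omit [Fintype σ] in
theorem coeff_cmap (L : ℂ →+ ℝ) (g : MvPowerSeries σ ℂ) (d : σ →₀ ℕ) :
    MvPowerSeries.coeff d (cmap L g) = L (MvPowerSeries.coeff d g) := rfl

theorem Exp.clm {F : (σ → ℂ) → ℂ} {F' : MvPowerSeries σ ℂ} (h : Exp F F') (L : ℂ →L[ℝ] ℝ) :
    Exp (fun x : σ → ℝ => L (F fun i => (x i : ℂ))) (cmap (L : ℂ →+ ℝ) F') := by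
  classical
  intro k
  have h1 : ∀ x : σ → ℝ, ‖fun i => (x i : ℂ)‖ = ‖x‖ := fun x => by
    simp [Pi.norm_def]
  have h2 : Tendsto (fun x : σ → ℝ => fun i => (x i : ℂ)) (𝓝 0) (𝓝 0) :=
    (continuous_pi fun i => Complex.continuous_ofReal.comp (continuous_apply i)).tendsto' _ _
      (by ext; simp)
  refine ((L.isBigO_comp _ _).trans ((h k).comp_tendsto h2)).congr (fun x => ?_) fun x => ?_
  · simp only [Function.comp, map_sub]
    congr 1
    have h3 : (MvPowerSeries.truncTotal k (cmap (L : ℂ →+ ℝ) F')).support ⊆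
        (MvPowerSeries.truncTotal k F').support := by
      intro d hd
      rw [MvPolynomial.mem_support_iff, MvPowerSeries.coeff_truncTotal_eq_ite] at hd ⊢
      split_ifs at hd ⊢ with h4
      · intro h5
        rw [coeff_cmap, h5, map_zero] at hd
        exact hd rfl
      · exact absurd rfl hd
    rw [MvPolynomial.eval_eq', MvPolynomial.eval_eq', map_sum,
      Finset.sum_subset h3 fun d _ hd => by rw [MvPolynomial.notMem_support_iff.1 hd, zero_mul]]
    refine Finset.sum_congr rfl fun d _ => ?_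
    have h6 : (MvPowerSeries.truncTotal k (cmap (L : ℂ →+ ℝ) F')).coeff d
        = L ((MvPowerSeries.truncTotal k F').coeff d) := by
      rw [MvPowerSeries.coeff_truncTotal_eq_ite, MvPowerSeries.coeff_truncTotal_eq_ite]
      split_ifs
      · rfl
      · simp
    rw [h6, mul_comm (L _), ← smul_eq_mul (∏ i, x i ^ d i), ← L.map_smul]
    congr 1
    simp [mul_comm]
  · simp [h1]

/-- the real part of a series -/
noncomputable def reS (g : MvPowerSeries σ ℂ) : MvPowerSeries σ ℝ :=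
  cmap (Complex.reCLM : ℂ →+ ℝ) g

omit [Fintype σ] in
theorem coeff_reS (g : MvPowerSeries σ ℂ) (d : σ →₀ ℕ) :
    MvPowerSeries.coeff d (reS g) = (MvPowerSeries.coeff d g).re := rfl

theorem Exp.re {F : (σ → ℂ) → ℂ} {F' : MvPowerSeries σ ℂ} (h : Exp F F') :
    Exp (fun x : σ → ℝ => (F fun i => (x i : ℂ)).re) (reS F') := h.clm Complex.reCLM

/-- a function which is real at real points has a real expansion -/
theorem Exp.map_reS {F : (σ → ℂ) → ℂ} {F' : MvPowerSeries σ ℂ} (h : Exp F F')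
    (hr : ∀ᶠ x in 𝓝 (0 : σ → ℝ), (F fun i => (x i : ℂ)).im = 0) :
    MvPowerSeries.map Complex.ofRealHom (reS F') = F' := by
  have h1 := (h.clm Complex.imCLM).unique (Exp.zero.congr (hr.mono fun x hx => hx.symm))
  ext d
  have h2 : (MvPowerSeries.coeff d F').im = 0 := congrArg (MvPowerSeries.coeff d) h1
  rw [MvPowerSeries.coeff_map, coeff_reS]
  exact Complex.ext (by simp) (by simp [h2])

/-! ### order along `{x i = 0, i ∈ S}` -/

section
variable [DecidableEq σ]

/-- the weight of the variables in `S` -/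
def wS (S : Finset σ) (i : σ) : ℕ := if i ∈ S then 1 else 0

/-- the `S`-part of a point -/
def resS (S : Finset σ) (x : σ → 𝕜) : σ → 𝕜 := fun i => if i ∈ S then x i else 0

/-- the ideal generated by the variables in `S` -/
noncomputable def idS (R : Type*) [CommRing R] (S : Finset σ) : Ideal (MvPowerSeries σ R) :=
  Ideal.span ((fun i => MvPowerSeries.X i) '' (S : Set σ))

theorem norm_resS_le (S : Finset σ) (x : σ → 𝕜) : ‖resS S x‖ ≤ ‖x‖ :=
  (pi_norm_le_iff_of_nonneg (norm_nonneg _)).2 fun i => by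
    unfold resS
    split_ifs
    · exact norm_le_pi_norm x i
    · simp

theorem norm_le_resS {S : Finset σ} (x : σ → 𝕜) {i : σ} (hi : i ∈ S) : ‖x i‖ ≤ ‖resS S x‖ := by
  simpa [resS, hi] using norm_le_pi_norm (resS S x) i

omit [Fintype σ] [DecidableEq σ] in
theorem le_wo_iff {R : Type*} [CommRing R] (w : σ → ℕ) {g : MvPowerSeries σ R} {k : ℕ} :
    (k : ℕ∞) ≤ g.weightedOrder w ↔
      ∀ d : σ →₀ ℕ, Finsupp.weight w d < k → MvPowerSeries.coeff d g = 0 :=
  ⟨fun h _ hd => MvPowerSeries.coeff_eq_zero_of_lt_weightedOrder w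
    (lt_of_lt_of_le (by exact_mod_cast hd) h), MvPowerSeries.nat_le_weightedOrder w⟩

omit [Fintype σ] in
theorem weight_add_single {S : Finset σ} {i : σ} (hi : i ∈ S) (d : σ →₀ ℕ) :
    Finsupp.weight (wS S) (d + Finsupp.single i 1) = Finsupp.weight (wS S) d + 1 := by
  rw [map_add, Finsupp.weight_single]
  simp [wS, hi]

omit [Fintype σ] in
theorem weight_eq_zero {S : Finset σ} {d : σ →₀ ℕ} (h : ∀ i ∈ S, d i = 0) :
    Finsupp.weight (wS S) d = 0 := by
  rw [Finsupp.weight_apply, Finsupp.sum]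
  refine Finset.sum_eq_zero fun i _ => ?_
  by_cases hi : i ∈ S
  · simp [h i hi]
  · simp [wS, hi]

omit [Fintype σ] in
theorem mem_idS_pow {R : Type*} [CommRing R] (S : Finset σ) (M : ℕ) (g : MvPowerSeries σ R) :
    g ∈ idS R S ^ M ↔ (M : ℕ∞) ≤ g.weightedOrder (wS S) := by
  classical
  induction M generalizing g with
  | zero => simp
  | succ M ih =>
    constructor
    · intro h
      rw [pow_succ] at h
      refine Submodule.mul_induction_on h (fun a ha b hb => ?_) fun a b ha hb =>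
        (le_min ha hb).trans (MvPowerSeries.min_weightedOrder_le_add _)
      refine le_trans ?_ (MvPowerSeries.le_weightedOrder_mul _)
      rw [Nat.cast_add]
      refine add_le_add ((ih a).1 ha) ?_
      refine Submodule.span_induction (p := fun b _ => ((1 : ℕ) : ℕ∞) ≤ b.weightedOrder (wS S))
        ?_ (by simp) (fun a b _ _ ha hb =>
          (le_min ha hb).trans (MvPowerSeries.min_weightedOrder_le_add _))
        (fun a b _ hb => (hb.trans le_add_self).trans (MvPowerSeries.le_weightedOrder_mul _)) hb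
      rintro _ ⟨i, hi, rfl⟩
      refine (le_wo_iff _).2 fun d hd => ?_
      rw [MvPowerSeries.coeff_X, if_neg]
      rintro rfl
      have := weight_add_single (Finset.mem_coe.1 hi) 0
      rw [zero_add] at this
      omega
    · intro h
      rw [le_wo_iff] at h
      let ch : (σ →₀ ℕ) → Option σ := fun e =>
        if he : ∃ i ∈ S, e i ≠ 0 then some he.choose else none
      obtain ⟨G, hG⟩ : ∃ G : σ → MvPowerSeries σ R, ∀ i d, MvPowerSeries.coeff d (G i) =
          if ch (d + Finsupp.single i 1) = some i then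
            MvPowerSeries.coeff (d + Finsupp.single i 1) g else 0 :=
        ⟨fun i d => if ch (d + Finsupp.single i 1) = some i then
            MvPowerSeries.coeff (d + Finsupp.single i 1) g else 0, fun _ _ => rfl⟩
      have h1 : g = ∑ i ∈ S, G i * MvPowerSeries.X i := by
        ext e
        rw [map_sum]
        have h2 : ∀ i, MvPowerSeries.coeff e (G i * MvPowerSeries.X i) =
            if ch e = some i ∧ e i ≠ 0 then MvPowerSeries.coeff e g else 0 := by
          intro i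
          rw [MvPowerSeries.X_def, MvPowerSeries.coeff_mul_monomial, mul_one]
          by_cases h3 : e i = 0
          · rw [if_neg (by simp [h3]), if_neg (by simp [h3])]
          · have h4 : Finsupp.single i 1 ≤ e := by
              rw [Finsupp.single_le_iff]
              omega
            rw [if_pos h4, hG, tsub_add_cancel_of_le h4]
            simp [h3]
        simp only [h2]
        by_cases he : ∃ i ∈ S, e i ≠ 0
        · have h5 : ch e = some he.choose := dif_pos he
          rw [Finset.sum_eq_single he.choose (fun i _ hi => if_neg fun h6 => hi (by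
            rw [h5] at h6
            exact (Option.some.inj h6.1).symm)) (fun h6 => absurd he.choose_spec.1 h6),
            if_pos ⟨h5, he.choose_spec.2⟩]
        · have h5 : ch e = none := dif_neg he
          push Not at he
          rw [h e (by rw [weight_eq_zero he]; omega)]
          simp
      rw [h1, pow_succ]
      refine Submodule.sum_mem _ fun i hi => Ideal.mul_mem_mul ((ih _).2 ((le_wo_iff _).2
        fun d hd => ?_)) (Ideal.subset_span ⟨i, hi, rfl⟩)
      rw [hG, h _ (by rw [weight_add_single hi]; omega), ite_self]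

/-- a bound by a power of `x_S` passes to the expansion -/
theorem Exp.mem_idS_pow {f : (σ → 𝕜) → 𝕜} {f' : MvPowerSeries σ 𝕜} (hf : Exp f f') (S : Finset σ)
    {M : ℕ} (h : f =O[𝓝 0] fun x => ‖resS S x‖ ^ M) : f' ∈ idS 𝕜 S ^ M := by
  rw [F.mem_idS_pow, le_wo_iff]
  intro d hd
  set L := d.degree with hL
  set k := (L + 1) * M with hk
  have hLk : d.degree < k := by nlinarith
  rw [← MvPowerSeries.coeff_truncTotal _ hLk]
  refine coeff_eq_zero_of_rays (fun i => L * wS S i + 1) (k := k) (fun x => ?_) d ?_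
  · let c : 𝕜 → σ → 𝕜 := fun s i => s ^ (L * wS S i + 1) * x i
    have hs : ∀ᶠ s in 𝓝[≠] (0 : 𝕜), ‖s‖ ≤ 1 :=
      mem_nhdsWithin_of_mem_nhds (Filter.mem_of_superset
        (Metric.closedBall_mem_nhds (0 : 𝕜) one_pos) fun s hs => mem_closedBall_zero_iff.1 hs)
    have h1 : c =O[𝓝[≠] 0] fun s => ‖s‖ := by
      refine IsBigO.of_bound ‖x‖ (hs.mono fun s hs => ?_)
      refine (pi_norm_le_iff_of_nonneg (by positivity)).2 fun i => ?_
      simp only [c, norm_mul, norm_pow, norm_norm, pow_succ]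
      have := pow_le_one₀ (n := L * wS S i) (norm_nonneg s) hs
      have h2 := norm_le_pi_norm x i
      calc ‖s‖ ^ (L * wS S i) * ‖s‖ * ‖x i‖ ≤ 1 * ‖s‖ * ‖x‖ := by gcongr
        _ = _ := by ring
    have h2 : (fun s => ‖resS S (c s)‖) =O[𝓝[≠] 0] fun s => ‖s‖ ^ (L + 1) := by
      refine IsBigO.of_bound ‖x‖ (Eventually.of_forall fun s => ?_)
      rw [norm_norm]
      refine (pi_norm_le_iff_of_nonneg (by positivity)).2 fun i => ?_
      unfold resS
      split_ifs with hi
      · simp only [c, wS, hi, if_true, mul_one, norm_mul, norm_pow, norm_norm]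
        rw [mul_comm]
        exact mul_le_mul_of_nonneg_right (norm_le_pi_norm x i) (by positivity)
      · simp only [norm_zero]
        positivity
    have h3 : Tendsto c (𝓝[≠] 0) (𝓝 0) :=
      h1.trans_tendsto (tendsto_norm_zero.mono_left nhdsWithin_le_nhds)
    have h4 := (h.comp_tendsto h3).trans (h2.pow M)
    have h5 := ((hf k).comp_tendsto h3).trans (h1.norm_left.pow k)
    simp only [← pow_mul] at h4
    refine (h4.sub h5).congr_left fun s => ?_
    simp [c]
  · have : Finsupp.weight (fun i => L * wS S i + 1) d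
        = L * Finsupp.weight (wS S) d + d.degree := by
      simp only [Finsupp.weight_apply, Finsupp.sum, Finsupp.degree_apply, Finset.mul_sum,
        ← Finset.sum_add_distrib, smul_eq_mul]
      exact Finset.sum_congr rfl fun i _ => by ring
    rw [this]
    nlinarith

/-- for analytic functions the converse holds -/
theorem isBigO_of_tay_mem (S : Finset σ) (M : ℕ) {f : (σ → 𝕜) → 𝕜} (hf : AnalyticAt 𝕜 f 0)
    (h : tay f ∈ idS 𝕜 S ^ M) : f =O[𝓝 0] fun x => ‖resS S x‖ ^ M := by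
  induction M generalizing f with
  | zero => simpa using (exp_tay hf).isBigO_one
  | succ M ih =>
    rw [mem_idS_pow, le_wo_iff] at h
    have h1 : ∀ i ∈ S, (fun x => fderiv 𝕜 f x (Pi.single i 1)) =O[𝓝 0]
        fun x => ‖resS S x‖ ^ M := fun i hi => ih (analyticAt_pd hf i) (by
      rw [mem_idS_pow, le_wo_iff, tay_pderiv hf]
      intro d hd
      rw [MvPowerSeries.coeff_pderiv, h _ (by rw [weight_add_single hi]; omega), zero_mul])
    let π : (σ → 𝕜) →L[𝕜] σ → 𝕜 := ContinuousLinearMap.pi fun i =>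
      if i ∈ Sᶜ then ContinuousLinearMap.proj i else 0
    have hπ : ∀ x, π x = resS Sᶜ x := fun x => by
      ext i
      simp only [π, ContinuousLinearMap.pi_apply, resS]
      split_ifs <;> rfl
    have hπ0 : Tendsto π (𝓝 0) (𝓝 0) := π.continuous.tendsto' _ _ (map_zero π)
    have h2 : (fun x => f (π x)) =ᶠ[𝓝 0] 0 := by
      refine Exp.eventually_zero (AnalyticAt.comp (by rwa [map_zero]) (π.analyticAt 0)) fun k => ?_
      refine (((exp_tay hf k).comp_tendsto hπ0).trans
        ((π.isBigO_id _).norm_norm.pow k)).congr_left fun x => ?_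
      simp only [Function.comp, map_zero]
      congr 1
      rw [MvPolynomial.eval_eq']
      refine Finset.sum_eq_zero fun d _ => ?_
      by_cases hd : ∀ i ∈ S, d i = 0
      · rw [MvPowerSeries.coeff_truncTotal_eq_ite, h d (by rw [weight_eq_zero hd]; omega), ite_self,
          zero_mul]
      · push Not at hd
        obtain ⟨i, hi, hd⟩ := hd
        rw [Finset.prod_eq_zero (Finset.mem_univ i) (by simp [hπ, resS, hi, hd]), mul_zero]
    choose! c hc0 hc using fun i hi => (h1 i hi).exists_pos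
    obtain ⟨r, hr, hb⟩ := Metric.eventually_nhds_iff_ball.1
      (hf.eventually_analyticAt.and ((Finset.eventually_all S).2 fun i hi => (hc i hi).bound))
    refine IsBigO.of_bound (∑ i ∈ S, c i) ?_
    filter_upwards [Metric.ball_mem_nhds (0 : σ → 𝕜) hr, h2] with x hx hx0
    let γ : 𝕜 → σ → 𝕜 := fun s => π x + s • resS S x
    have hγ : ∀ s ∈ Metric.closedBall (0 : 𝕜) 1, γ s ∈ Metric.ball 0 r ∧
        ‖resS S (γ s)‖ ≤ ‖resS S x‖ := by
      intro s hs
      rw [mem_closedBall_zero_iff] at hs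
      constructor
      · refine mem_ball_zero_iff.2 (lt_of_le_of_lt ?_ (mem_ball_zero_iff.1 hx))
        refine (pi_norm_le_iff_of_nonneg (norm_nonneg _)).2 fun i => ?_
        refine le_trans ?_ (norm_le_pi_norm x i)
        by_cases hi : i ∈ S
        · simpa [γ, hπ, resS, hi] using mul_le_of_le_one_left (norm_nonneg (x i)) hs
        · simp [γ, hπ, resS, hi]
      · refine (pi_norm_le_iff_of_nonneg (norm_nonneg _)).2 fun i => ?_
        refine le_trans ?_ (norm_le_pi_norm (resS S x) i)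
        by_cases hi : i ∈ S
        · simpa [γ, hπ, resS, hi] using mul_le_of_le_one_left (norm_nonneg (x i)) hs
        · simp [resS, hi]
    have hv : resS S x = ∑ i ∈ S, x i • (Pi.single i 1 : σ → 𝕜) := by
      ext j
      simp [resS, Pi.single_apply]
    have := (convex_closedBall (0 : 𝕜) 1).norm_image_sub_le_of_norm_hasDerivWithin_le
      (f := fun s => f (γ s)) (f' := fun s => fderiv 𝕜 f (γ s) (resS S x))
      (C := (∑ i ∈ S, c i) * ‖resS S x‖ ^ (M + 1))
      (fun s hs => by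
        have h3 : HasDerivAt γ (resS S x) s := by
          have h4 := ((hasDerivAt_id s).smul_const (resS S x)).const_add (π x)
          rwa [one_smul] at h4
        exact ((hb _ (hγ s hs).1).1.differentiableAt.hasFDerivAt.comp_hasDerivAt s
          h3).hasDerivWithinAt)
      (fun s hs => by
        conv_lhs => rw [hv]
        rw [map_sum, Finset.sum_mul]
        refine (norm_sum_le _ _).trans (Finset.sum_le_sum fun i hi => ?_)
        have h3 := (hb _ (hγ s hs).1).2 i hi
        rw [norm_pow, norm_norm] at h3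
        have h4 := pow_le_pow_left₀ (norm_nonneg _) (hγ s hs).2 M
        have h5 := norm_le_resS x hi
        have h6 := hc0 i hi
        rw [map_smul, norm_smul, pow_succ]
        calc ‖x i‖ * ‖fderiv 𝕜 f (γ s) (Pi.single i 1)‖
            ≤ ‖resS S x‖ * (c i * ‖resS S x‖ ^ M) := by
              gcongr
              exact h3.trans (by gcongr)
          _ = _ := by ring)
      (Metric.mem_closedBall_self zero_le_one) (y := 1) (by simp)
    have h7 : γ 1 = x := by
      ext i
      by_cases hi : i ∈ S <;> simp [γ, hπ, resS, hi]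
    have h8 : f (γ 0) = 0 := by simpa [γ] using hx0
    simpa [h7, h8] using this

theorem isBigO_iff_tay_mem (S : Finset σ) (M : ℕ) {f : (σ → 𝕜) → 𝕜} (hf : AnalyticAt 𝕜 f 0) :
    (f =O[𝓝 0] fun x => ‖resS S x‖ ^ M) ↔ tay f ∈ idS 𝕜 S ^ M :=
  ⟨(exp_tay hf).mem_idS_pow S, isBigO_of_tay_mem S M hf⟩

/-! ### the power inequality -/

open Vale.Agent.Lib.RealArc

theorem exp_iff_hasExp {σ : Type} [Fintype σ] {g : (σ → ℝ) → ℝ} {g' : MvPowerSeries σ ℝ} :
    Exp g g' ↔ HasExp g g' := Iff.rfl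

omit [Fintype σ] [DecidableEq σ] in
theorem dvd_of_mem_idS {A : Type*} [CommRing A] [Algebra ℝ A] (S : Finset σ)
    (φ : MvPowerSeries σ ℝ →ₐ[ℝ] A) {a : A} (h : ∀ i ∈ S, a ∣ φ (MvPowerSeries.X i)) {M : ℕ}
    {g : MvPowerSeries σ ℝ} (hg : g ∈ idS ℝ S ^ M) : a ^ M ∣ φ g := by
  have h1 : (idS ℝ S).map φ ≤ Ideal.span {a} := by
    rw [idS, Ideal.map_span, Ideal.span_le]
    rintro _ ⟨_, ⟨i, hi, rfl⟩, rfl⟩
    exact Ideal.mem_span_singleton.2 (h i hi)
  have h2 := Ideal.mem_map_of_mem φ hg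
  rw [Ideal.map_pow] at h2
  have h3 := Ideal.pow_right_mono h1 M h2
  rwa [Ideal.span_singleton_pow, Ideal.mem_span_singleton] at h3

/-- the formal arc of an analytic arc -/
theorem exists_formal_arc {σ : Type} [Fintype σ] [DecidableEq σ] (S : Finset σ)
    {γ : ℝ → σ → ℝ} (hγ : AnalyticAt ℝ γ 0) (hγ0 : γ 0 = 0)
    (hne : ∀ᶠ s in 𝓝[>] (0 : ℝ), resS S (γ s) ≠ 0) :
    ∃ i₀ ∈ S, ∃ φ : MvPowerSeries σ ℝ →ₐ[ℝ] ℝ⟦X⟧, φ (MvPowerSeries.X i₀) ≠ 0 ∧
      (∀ i ∈ S, φ (MvPowerSeries.X i₀) ∣ φ (MvPowerSeries.X i)) ∧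
      ∀ (G : (σ → ℝ) → ℝ) (G' : MvPowerSeries σ ℝ) (N : ℕ), Exp G G' →
        ((fun s => G (γ s)) =O[𝓝[>] 0] fun s => ‖resS S (γ s)‖ ^ N) →
        φ (MvPowerSeries.X i₀) ^ N ∣ φ G' := by
  classical
  have hγi : ∀ i, AnalyticAt ℝ (fun s => γ s i) 0 := fun i => analyticAt_pi_iff.1 hγ i
  choose γ' h1 h2 h3 using fun i => exists_exp1 (hγi i)
  have h0 : ∀ i, PowerSeries.constantCoeff (γ' i) = 0 := fun i => by rw [h2, hγ0]; rfl
  have hS : (S.filter fun i => γ' i ≠ 0).Nonempty := by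
    by_contra hc
    rw [Finset.not_nonempty_iff_eq_empty, Finset.filter_eq_empty_iff] at hc
    have h4 : ∀ᶠ s in 𝓝[>] (0 : ℝ), ∀ i ∈ S, γ s i = 0 :=
      ((Finset.eventually_all S).2 fun i hi => h3 i (not_not.1 (hc hi))).filter_mono
        nhdsWithin_le_nhds
    obtain ⟨s, hs1, hs2⟩ := (hne.and h4).exists
    refine hs1 (funext fun i => ?_)
    unfold resS
    split_ifs with hi
    · exact hs2 i hi
    · rfl
  obtain ⟨i₀, hi₀, hmin⟩ := Finset.exists_min_image _ (fun i => (γ' i).order.toNat) hS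
  rw [Finset.mem_filter] at hi₀
  set n := (γ' i₀).order.toNat with hn
  have hdvd : ∀ i ∈ S, (PowerSeries.X : ℝ⟦X⟧) ^ n ∣ γ' i := by
    intro i hi
    by_cases hz : γ' i = 0
    · rw [hz]
      exact dvd_zero _
    exact (pow_dvd_pow _ (hmin i (Finset.mem_filter.2 ⟨hi, hz⟩))).trans
      PowerSeries.X_pow_order_dvd
  have hq : (fun s => ‖resS S (γ s)‖) =O[𝓝[>] 0] fun s => s ^ n := by
    refine IsBigO.norm_left (isBigO_pi.2 fun i => ?_)
    unfold resS
    split_ifs with hi
    · exact (h1 i).isBigO_of_dvd (hdvd i hi)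
    · exact isBigO_zero _ _
  have hu : γ' i₀ ∣ PowerSeries.X ^ n := by
    obtain ⟨u, hu⟩ := PowerSeries.isUnit_divided_by_X_pow_order hi₀.2
    refine ⟨↑u⁻¹, ?_⟩
    have := PowerSeries.X_pow_order_mul_divXPowOrder (f := γ' i₀)
    conv_rhs => rw [← this, ← hu]
    simp [mul_assoc, hn]
  refine ⟨i₀, hi₀.1, arcHom h0, by rw [arcHom_X]; exact hi₀.2, fun i hi => ?_,
    fun G G' N hG hb => ?_⟩
  · rw [arcHom_X, arcHom_X]
    exact hu.trans (hdvd i hi)
  · have h4 : (PowerSeries.X : ℝ⟦X⟧) ^ (n * N) ∣ arcHom h0 G' := by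
      refine ((exp_iff_hasExp.1 hG).comp h1 h0).dvd_of_isBigO (hb.trans ?_)
      simpa [pow_mul] using hq.pow N
    refine dvd_trans ?_ h4
    rw [arcHom_X, pow_mul]
    exact pow_dvd_pow_of_dvd hu N

/-- **F1b.** Analytic truncations `lam M` whose Taylor series converge `S`-adically to `g`: without
a formal arc in `{g = 0}` which leaves `{x_S = 0}` a power of `x_S` is bounded by `lam M`. -/
theorem pow_le_of_no_arc' {σ ι : Type} [Fintype σ] [DecidableEq σ] [Fintype ι] (S : Finset σ)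
    {lam : ℕ → (σ → ℝ) → ι → ℝ} (ha : ∀ M, AnalyticAt ℝ (lam M) 0) {g : ι → MvPowerSeries σ ℝ}
    (hg : ∀ M j, tay (fun x => lam M x j) - g j ∈ idS ℝ S ^ (M + 1))
    (hno : ∀ γ : σ → ℝ⟦X⟧, (∀ i, PowerSeries.constantCoeff (γ i) = 0) →
      (∀ j, MvPowerSeries.subst (τ := Unit) (S := ℝ) γ (g j) = 0) → ∀ i ∈ S, γ i = 0) :
    ∃ N : ℕ, 0 < N ∧ ∀ M, N ≤ M → ∃ C : ℝ, 0 < C ∧
      ∀ᶠ x in 𝓝 (0 : σ → ℝ), ‖resS S x‖ ^ N ≤ C * ‖lam M x‖ := by
  have haj : ∀ M j, AnalyticAt ℝ (fun x => lam M x j) 0 := fun M j =>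
    analyticAt_pi_iff.1 (ha M) j
  suffices h : ∃ N : ℕ, 0 < N ∧ ∃ C : ℝ, 0 < C ∧
      ∀ᶠ x in 𝓝 (0 : σ → ℝ), ‖resS S x‖ ^ N ≤ C * ‖lam N x‖ by
    obtain ⟨N, hN, C, hC, h⟩ := h
    refine ⟨N, hN, fun M hM => ⟨2 * C, by positivity, ?_⟩⟩
    have h1 : (fun x => lam N x - lam M x) =O[𝓝 0] fun x => ‖resS S x‖ ^ (N + 1) := by
      refine isBigO_pi.2 fun j => isBigO_of_tay_mem S (N + 1) ((haj N j).fun_sub (haj M j)) ?_
      simp only [Pi.sub_apply]
      rw [tay_sub (haj N j) (haj M j), ← sub_sub_sub_cancel_right _ _ (g j)]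
      exact Ideal.sub_mem _ (hg N j) (Ideal.pow_le_pow_right (by omega) (hg M j))
    obtain ⟨c, hc, h2⟩ := h1.exists_pos
    filter_upwards [h, h2.bound, Metric.ball_mem_nhds (0 : σ → ℝ)
      (show 0 < 1 / (2 * C * c) by positivity)] with x e1 e2 e3
    rw [mem_ball_zero_iff, lt_div_iff₀ (by positivity)] at e3
    rw [norm_pow, norm_norm, pow_succ] at e2
    have e4 := norm_resS_le S x
    have e5 : ‖lam N x‖ ≤ ‖lam M x‖ + ‖lam N x - lam M x‖ := norm_le_insert' _ _
    have e6 : 0 ≤ ‖resS S x‖ ^ N := by positivity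
    have e7 : C * (c * (‖resS S x‖ ^ N * ‖resS S x‖)) ≤ 1 / 2 * ‖resS S x‖ ^ N := by
      have : C * c * ‖resS S x‖ ≤ 1 / 2 := by nlinarith [mul_pos hC hc]
      nlinarith
    nlinarith
  by_contra hcon
  have key : ∀ N : ℕ, ∃ i₀ ∈ S, ∃ φ : MvPowerSeries σ ℝ →ₐ[ℝ] ℝ⟦X⟧,
      φ (MvPowerSeries.X i₀) ≠ 0 ∧ ∀ j, φ (MvPowerSeries.X i₀) ^ N ∣ φ (g j) := by
    intro N₀
    set N := N₀ + 1 with hN
    set q : (σ → ℝ) → ℝ := fun x => ∑ i ∈ S, x i ^ 2 with hq
    have hqa : AnalyticAt ℝ q 0 :=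
      Finset.analyticAt_fun_sum _ fun i _ =>
        ((ContinuousLinearMap.proj (R := ℝ) (φ := fun _ : σ => ℝ) i).analyticAt 0).pow 2
    have hq1 : ∀ x, ‖resS S x‖ ^ 2 ≤ q x := fun x => by
      have h0 : 0 ≤ q x := Finset.sum_nonneg fun i _ => sq_nonneg _
      rw [← Real.le_sqrt (norm_nonneg _) h0]
      refine (pi_norm_le_iff_of_nonneg (Real.sqrt_nonneg _)).2 fun i => ?_
      unfold resS
      split_ifs with hi
      · exact Real.abs_le_sqrt
          (Finset.single_le_sum (f := fun i => x i ^ 2) (fun i _ => sq_nonneg _) hi)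
      · simp
    have hq2 : ∀ x, q x ≤ S.card * ‖resS S x‖ ^ 2 := fun x => by
      rw [← nsmul_eq_mul]
      refine Finset.sum_le_card_nsmul _ _ _ fun i hi => ?_
      rw [← sq_abs]
      exact pow_le_pow_left₀ (abs_nonneg _) (norm_le_resS x hi) 2
    let Φ : (σ → ℝ) → ℝ := fun x => ∑ j, lam N x j ^ 2 - q x ^ N
    have hΦ : AnalyticAt ℝ Φ 0 :=
      (Finset.analyticAt_fun_sum _ fun j _ => (haj N j).pow 2).sub (hqa.pow _)
    have hΦf : ∃ᶠ x in 𝓝 (0 : σ → ℝ), Φ x < 0 := by
      by_contra h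
      rw [not_frequently] at h
      refine hcon ⟨N, by omega, Fintype.card ι + 1, by positivity, h.mono fun x hx => ?_⟩
      have h1 : ∑ j, lam N x j ^ 2 ≤ Fintype.card ι * ‖lam N x‖ ^ 2 := by
        rw [← nsmul_eq_mul]
        refine Finset.sum_le_card_nsmul _ _ _ fun j _ => ?_
        rw [← sq_abs]
        exact pow_le_pow_left₀ (abs_nonneg _) (norm_le_pi_norm (lam N x) j) 2
      have h2 := pow_le_pow_left₀ (sq_nonneg _) (hq1 x) N
      rw [← pow_mul, mul_comm 2 N, pow_mul] at h2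
      simp only [Φ, not_lt] at hx
      refine abs_le_of_sq_le_sq' ?_ (by positivity) |>.2
      have h3 : (0 : ℝ) ≤ Fintype.card ι := Nat.cast_nonneg _
      nlinarith [sq_nonneg ‖lam N x‖, mul_nonneg (mul_nonneg h3 h3) (sq_nonneg ‖lam N x‖),
        mul_nonneg h3 (sq_nonneg ‖lam N x‖)]
    obtain ⟨γ, hγa, hγ0, hγ⟩ := Vale.Agent.P298.H744.curve_selection hΦ hΦf
    obtain ⟨i₀, hi₀, φ, h1, h2, h3⟩ := exists_formal_arc S hγa hγ0 (hγ.mono fun s hs h0 => by
      have h3 : q (γ s) ≤ 0 := by simpa [h0] using hq2 (γ s)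
      have h3' : q (γ s) = 0 := le_antisymm h3 ((sq_nonneg _).trans (hq1 _))
      have h4 : 0 ≤ ∑ j, lam N (γ s) j ^ 2 := Finset.sum_nonneg fun j _ => sq_nonneg _
      simp only [Φ, h3', zero_pow (show N ≠ 0 by omega), sub_zero] at hs
      linarith)
    refine ⟨i₀, hi₀, φ, h1, fun j => (pow_dvd_pow _ (show N₀ ≤ N by omega)).trans ?_⟩
    have h4 := h3 _ _ N (exp_tay (haj N j)) (by
      refine IsBigO.of_pow (n := 2) two_ne_zero (IsBigO.of_bound (S.card ^ N) ?_)
      filter_upwards [hγ] with s hs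
      have h4 : lam N (γ s) j ^ 2 ≤ ∑ j, lam N (γ s) j ^ 2 :=
        Finset.single_le_sum (f := fun j => lam N (γ s) j ^ 2) (fun j _ => sq_nonneg _)
          (Finset.mem_univ j)
      have h5 := pow_le_pow_left₀ ((sq_nonneg _).trans (hq1 _)) (hq2 (γ s)) N
      simp only [Φ] at hs
      simp only [Pi.pow_apply, Real.norm_eq_abs]
      rw [abs_of_nonneg (sq_nonneg _), abs_of_nonneg (sq_nonneg _), ← pow_mul, mul_comm N 2,
        pow_mul, ← mul_pow]
      linarith)
    have h5 := (pow_dvd_pow _ (Nat.le_succ N)).trans (dvd_of_mem_idS S φ h2 (hg N j))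
    rw [map_sub] at h5
    simpa using dvd_sub h4 h5
  obtain ⟨i₀, hi₀, hall⟩ : ∃ i₀ ∈ S, ∀ N : ℕ, ∃ φ : MvPowerSeries σ ℝ →ₐ[ℝ] ℝ⟦X⟧,
      φ (MvPowerSeries.X i₀) ≠ 0 ∧ ∀ j, φ (MvPowerSeries.X i₀) ^ N ∣ φ (g j) := by
    by_contra h
    push Not at h
    choose! Nf hNf using h
    obtain ⟨i₀, hi₀, φ, h1, h2⟩ := key (∑ i ∈ S, Nf i)
    obtain ⟨j, hj⟩ := hNf i₀ hi₀ φ h1
    exact hj ((pow_dvd_pow _ (Finset.single_le_sum (fun i _ => Nat.zero_le (Nf i)) hi₀)).trans
      (h2 j))
  obtain ⟨ψ, h1, h2⟩ := arc_lemma_hom i₀ (Set.range g) fun N => by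
    obtain ⟨φ, h1, h2⟩ := hall N
    exact ⟨φ, h1, by rintro _ ⟨j, rfl⟩; exact h2 j⟩
  exact h1 (hno (fun i => ψ (MvPowerSeries.X i))
    (fun i => const_hom ψ (MvPowerSeries.constantCoeff_X i))
    (fun j => (hom_eq_subst ψ _).symm.trans (h2 _ ⟨j, rfl⟩)) i₀ hi₀)

end

end Vale.Agent.P218N.F
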